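import Crest.Agent.N218.Tr.Top
import Crest.Agent.N218.Fo.Rp

/-!
# Row 218, transfer (helper37): subgroups of cyclic groups
-/

set_option autoImplicit false
set_option linter.unusedVariables false
set_option linter.unusedSectionVars false

open Crest.Agent.N218.Fo Complex

noncomputable section

namespace Crest.Agent.N218.Tr

variable {q h c : ℕ} [NeZero q] [NeZero h]

/-- the inclusion `C_h → C_q`, `q = h c` -/
def ph (e : q = h * c) : Multiplicative (ZMod h) →* Multiplicative (ZMod q) :=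
  AddMonoidHom.toMultiplicative (ZMod.lift h ⟨zmultiplesHom (ZMod q) (c : ZMod q), by
    simp only [zmultiplesHom_apply, zsmul_eq_mul, Int.cast_natCast]
    rw [← Nat.cast_mul, ← e, ZMod.natCast_self]⟩)

theorem ph_nat (e : q = h * c) (b : ℕ) :
    ph e (Multiplicative.ofAdd (b : ZMod h)) = Multiplicative.ofAdd ((b : ZMod q) * c) := by
  change Multiplicative.ofAdd (ZMod.lift h _ (b : ZMod h)) = _
  rw [← Int.cast_natCast (R := ZMod h), ZMod.lift_coe]; simp

theorem ph_val (e : q = h * c) (k : Multiplicative (ZMod h)) :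
    (ph e k).toAdd = (k.toAdd.val : ZMod q) * c := by
  conv_lhs => rw [← ofAdd_toAdd k, ← ZMod.natCast_zmod_val k.toAdd, ph_nat]
  rfl


theorem mem_ph (e : q = h * c) (g : Multiplicative (ZMod q)) :
    g ∈ (ph e).range ↔ ∃ b : ℕ, g.toAdd = b * c :=
  ⟨fun ⟨k, hk⟩ => ⟨_, hk ▸ ph_val e k⟩, fun ⟨b, hb⟩ => ⟨_, (ph_nat e b).trans (by rw [← hb]; rfl)⟩⟩

theorem inc_nat (b : ℕ) :
    (inc q (Multiplicative.ofAdd (b : ZMod q)) : ℂ) = exp (2 * Real.pi * I * b / q) :=
  ZMod.toCircle_natCast b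

/-- compatibility with the inclusions in the circle -/
theorem inc_ph (e : q = h * c) : inc h = (inc q).comp (ph e) := by
  refine MonoidHom.ext fun k => Circle.ext ?_
  rw [← ofAdd_toAdd k, ← ZMod.natCast_zmod_val k.toAdd, MonoidHom.comp_apply, ph_nat,
    ← Nat.cast_mul, inc_nat, inc_nat]
  have : (c : ℂ) ≠ 0 := Nat.cast_ne_zero.2 fun k => NeZero.ne q (by rw [e, k, mul_zero])
  have : (h : ℂ) ≠ 0 := Nat.cast_ne_zero.2 (NeZero.ne h)
  congr 1; rw [e]; push_cast; field_simp

theorem ph_inj (e : q = h * c) : Function.Injective (ph e) := fun a b k =>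
  inc_inj h (by rw [inc_ph e, MonoidHom.comp_apply, MonoidHom.comp_apply, k])




end Crest.Agent.N218.Tr
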