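import Crest.Agent.R204.KDefs_357
import Crest.Agent.N218.K.Defs

-- ▼ part N218/Tr/Alg
section

/-!
# Row 218, transfer (helper37), algebra: restriction of scalars along a framed extension
-/

set_option autoImplicit false
set_option linter.unusedVariables false
set_option linter.unusedSectionVars false
set_option linter.unusedSimpArgs false

open Crest.Agent.R204.K357 Matrix
open scoped Kronecker

noncomputable section

namespace Crest.Agent.N218.Tr

/-- a ring extension with a conditional expectation and a finite frame -/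
structure Fr (A B α : Type) [CommRing A] [CommRing B] [Fintype α] where
  ι : A →+* B
  E : B →+ A
  u : α → B
  v : α → B
  lin : ∀ a b, E (ι a * b) = a * E b
  fr : ∀ b, ∑ a, ι (E (u a * b)) * v a = b

namespace Fr
variable {A B α : Type} [CommRing A] [CommRing B] [Fintype α] (D : Fr A B α)
variable {I J K : Type} [Fintype I] [Fintype J] [Fintype K]

theorem key (b b' : B) : ∑ a, D.E (b * D.v a) * D.E (D.u a * b') = D.E (b * b') := by
  conv_rhs => rw [← D.fr b', Finset.mul_sum, map_sum]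
  refine Finset.sum_congr rfl fun a _ => ?_
  rw [mul_comm, ← D.lin]; congr 1; ring

/-- block matrix -/
def R (p : Matrix I J B) : Matrix (I × α) (J × α) A :=
  of fun x y => D.E (D.u x.2 * p x.1 y.1 * D.v y.2)
/-- block column -/
def C (p : Matrix I J B) : Matrix (I × α) J A := of fun x j => D.E (D.u x.2 * p x.1 j)
/-- block row -/
def W (p : Matrix I J B) : Matrix I (J × α) A := of fun i y => D.E (p i y.1 * D.v y.2)

theorem R_mul (p : Matrix I J B) (q : Matrix J K B) : D.R p * D.R q = D.R (p * q) := by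
  ext x y
  simp only [R, mul_apply, of_apply, Fintype.sum_prod_type, Finset.mul_sum, Finset.sum_mul, map_sum]
  refine Finset.sum_congr rfl fun j _ => ?_
  simp only [mul_assoc (D.u _) (q _ _), D.key]; congr 1; ring

theorem R_C (p : Matrix I J B) (q : Matrix J K B) : D.R p * D.C q = D.C (p * q) := by
  ext x y
  simp only [R, C, mul_apply, of_apply, Fintype.sum_prod_type, Finset.mul_sum, map_sum]
  refine Finset.sum_congr rfl fun j _ => ?_
  simp only [D.key]; congr 1; ring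

theorem W_R (p : Matrix I J B) (q : Matrix J K B) : D.W p * D.R q = D.W (p * q) := by
  ext x y
  simp only [R, W, mul_apply, of_apply, Fintype.sum_prod_type, Finset.sum_mul, map_sum]
  refine Finset.sum_congr rfl fun j _ => ?_
  simp only [mul_assoc (D.u _) (q _ _), D.key]; congr 1; ring

theorem W_C (p : Matrix I J B) (q : Matrix J K B) : D.W p * D.C q = (p * q).map D.E := by
  ext x y
  simp only [C, W, mul_apply, of_apply, Fintype.sum_prod_type, map_apply, map_sum, D.key]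

theorem C_mul (p : Matrix I J B) (q : Matrix J K A) : D.C p * q = D.C (p * q.map D.ι) := by
  ext x y
  simp only [C, mul_apply, of_apply, map_apply, Finset.mul_sum, map_sum]
  refine Finset.sum_congr rfl fun j _ => ?_
  rw [mul_comm, ← D.lin]; congr 1; ring

theorem mul_W (q : Matrix I J A) (p : Matrix J K B) : q * D.W p = D.W (q.map D.ι * p) := by
  ext x y
  simp only [W, mul_apply, of_apply, map_apply, Finset.sum_mul, map_sum]
  refine Finset.sum_congr rfl fun j _ => ?_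
  rw [← D.lin]; congr 1; ring

theorem R_add (p q : Matrix I J B) : D.R (p + q) = D.R p + D.R q := by
  ext x y; simp [R, mul_add, add_mul]

theorem R_idem {p : Matrix I I B} (h : p * p = p) : D.R p * D.R p = D.R p := by rw [R_mul, h]

theorem R_mvn {p : Matrix I I B} {q : Matrix J J B} (h : MvN p q) : MvN (D.R p) (D.R q) := by
  obtain ⟨x, y, h1, h2⟩ := h
  exact ⟨D.R x, D.R y, by rw [R_mul, h1], by rw [R_mul, h2]⟩

/-- the transfer on classes -/
def tV (x : V B) : K0 A :=
  Quotient.liftOn x (fun e => K0.cls (D.R e.e)) fun a b h =>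
    K0.cls_eq (D.R_idem a.idem) (D.R_idem b.idem) (D.R_mvn h)

theorem tV_cl {p : Matrix I I B} (h : p * p = p) : D.tV (cl p) = K0.cls (D.R p) := by
  obtain ⟨n, e, he, h'⟩ := V.exists_rep (cl p)
  rw [← h', show cl e = V.mk ⟨n, e, he⟩ from cl_mk ⟨n, e, he⟩]
  exact K0.cls_eq (D.R_idem he) (D.R_idem h) (D.R_mvn ((cl_eq_iff he h).1 h'))

theorem cls_R_sum {p : Matrix I I B} {q : Matrix J J B} (hp : p * p = p) (hq : q * q = q) :
    K0.cls (D.R (fromBlocks p 0 0 q)) = K0.cls (D.R p) + K0.cls (D.R q) := by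
  rw [← K0.cls_sum (D.R_idem hp) (D.R_idem hq)]
  refine K0.cls_of_equiv (D.R_idem (idem_sum hp hq)) (Equiv.sumProdDistrib I J α) ?_
  rintro ⟨i | i, a⟩ ⟨j | j, b⟩ <;> simp [R]

/-- **the transfer** -/
def tau : K0 B →+ K0 A := Groth.lift
  { toFun := D.tV
    map_zero' := by
      rw [cl_zero_def, D.tV_cl (by simp), ← K0.cls_zero (I := Empty × α)]
      congr 1; ext ⟨i, _⟩; exact i.elim
    map_add' := fun x y => by
      induction x using V.ind with | _ n e he =>
      induction y using V.ind with | _ m f hf =>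
      rw [← cl_sum he hf, D.tV_cl (idem_sum he hf), D.tV_cl he, D.tV_cl hf, D.cls_R_sum he hf] }

theorem tau_cls {p : Matrix I I B} (h : p * p = p) : D.tau (K0.cls p) = K0.cls (D.R p) :=
  (Groth.lift_ofAdd _ _).trans (D.tV_cl h)

/-- the Gram projection -/
def G : Matrix α α A := of fun a b => D.E (D.u a * D.v b)

theorem G_idem : D.G * D.G = D.G := by
  ext a b; simp only [G, mul_apply, of_apply, D.key]

/-- **projection formula** -/
theorem tau_map (x : K0 A) : D.tau (K0.map D.ι x) = x * K0.cls D.G := by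
  have k : ∀ (n : ℕ) (e : Matrix (Fin n) (Fin n) A), e * e = e →
      D.tau (K0.map D.ι (K0.cls e)) = K0.cls e * K0.cls D.G := fun n e he => by
    rw [K0.map_cls _ he, D.tau_cls (idem_map _ he), ← K0.cls_kron he D.G_idem]
    congr 1; ext x y
    simp only [R, G, of_apply, map_apply, kroneckerMap_apply]
    rw [← D.lin]; congr 1; ring
  induction x using K0.ind with | _ n m e f he hf =>
  rw [map_sub, map_sub, k n e he, k m f hf, sub_mul]

/-- **support lemma** (rotation of the distinguished sheet) -/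
theorem swap {p : Matrix I I B} {P Q : Matrix I I A} (hp : p * p = p) (hP : P * P = P)
    (hQ : Q * Q = Q) (σ σ' κ : B) (c : A) (h1 : ∀ b, σ * D.ι (D.E (σ' * b)) = (1 - κ * κ) * b)
    (h2 : D.E (σ' * σ) + c * c = 1) (h3 : σ * D.ι c = σ * κ) (h3' : σ' * D.ι c = σ' * κ)
    (h4 : κ • p = κ • Q.map D.ι) (h5 : σ' • p = σ' • P.map D.ι) (h6 : c • P = c • Q) :
    D.tau (K0.cls p) + K0.cls Q = D.tau (K0.cls (Q.map D.ι)) + K0.cls P := by
  classical
  have hQ' := idem_map D.ι hQ
  rw [D.tau_cls hp, D.tau_cls hQ', ← K0.cls_sum (D.R_idem hp) hQ, ← K0.cls_sum (D.R_idem hQ') hP]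
  have e1 : D.C (σ • (1 : Matrix I I B)) * D.W (σ' • (1 : Matrix I I B)) =
      D.R ((1 - κ * κ) • (1 : Matrix I I B)) := by
    ext x y
    simp only [C, W, R, mul_apply, of_apply, Matrix.smul_apply, one_apply, smul_eq_mul, mul_ite,
      mul_one,
      mul_zero, ite_mul, zero_mul, apply_ite D.E, map_zero, Finset.sum_ite_eq', Finset.mem_univ,
      if_true]
    split_ifs
    · rw [mul_comm, ← D.lin, mul_assoc (D.u x.2) (1 - κ * κ), ← h1]; congr 1; ring
    · rfl
  have e2 : D.R (κ • (1 : Matrix I I B)) * D.R (κ • (1 : Matrix I I B)) +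
      D.C (σ • (1 : Matrix I I B)) * D.W (σ' • (1 : Matrix I I B)) = D.R 1 := by
    rw [e1, R_mul, ← R_add]; congr 1
    rw [smul_mul_smul_comm, mul_one, ← add_smul]; simp
  have m1 : (c • (1 : Matrix I I A)).map D.ι = D.ι c • (1 : Matrix I I B) := by
    ext i j; by_cases h : i = j <;> simp [one_apply, h]
  have e3 : D.R (κ • (1 : Matrix I I B)) * D.C (σ • (1 : Matrix I I B)) =
      D.C (σ • (1 : Matrix I I B)) * (c • (1 : Matrix I I A)) := by
    rw [R_C, C_mul, m1, smul_mul_smul_comm, smul_mul_smul_comm, h3, mul_comm κ]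
  have e4 : D.W (σ' • (1 : Matrix I I B)) * D.R (κ • (1 : Matrix I I B)) =
      (c • (1 : Matrix I I A)) * D.W (σ' • (1 : Matrix I I B)) := by
    rw [W_R, mul_W, m1, smul_mul_smul_comm, smul_mul_smul_comm, mul_comm (D.ι c), h3']
  have e5 : D.W (σ' • (1 : Matrix I I B)) * D.C (σ • (1 : Matrix I I B)) +
      (c • (1 : Matrix I I A)) * (c • (1 : Matrix I I A)) = 1 := by
    rw [W_C, smul_mul_smul_comm, smul_mul_smul_comm, mul_one, mul_one]
    ext i j
    by_cases h : i = j <;> simp [one_apply, h, h2]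
  set r := D.R (κ • (1 : Matrix I I B))
  set s := D.C (σ • (1 : Matrix I I B))
  set w := D.W (σ' • (1 : Matrix I I B))
  set c' := c • (1 : Matrix I I A)
  have hU : fromBlocks r (-s) w c' * fromBlocks (D.R p) 0 0 Q =
      fromBlocks (D.R (Q.map D.ι)) 0 0 P * fromBlocks r (-s) w c' := by
    simp only [fromBlocks_multiply, Matrix.mul_zero, Matrix.zero_mul, add_zero, zero_add,
      Matrix.neg_mul, Matrix.mul_neg, r, s, w, c', R_mul, R_C, W_R, C_mul, mul_W, smul_mul,
      Matrix.mul_smul, Matrix.one_mul, Matrix.mul_one, h4, h5, h6, smul_zero, neg_zero]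
  have a1 : fromBlocks r s (-w) c' * fromBlocks r (-s) w c' = fromBlocks (D.R 1) 0 0 1 := by
    simp only [fromBlocks_multiply, Matrix.neg_mul, Matrix.mul_neg, neg_neg, e2, e3, e4, e5,
      neg_add_cancel]
  have a2 : fromBlocks r (-s) w c' * fromBlocks r s (-w) c' = fromBlocks (D.R 1) 0 0 1 := by
    simp only [fromBlocks_multiply, Matrix.neg_mul, Matrix.mul_neg, neg_neg, e2, e3, e4, e5,
      add_neg_cancel]
  have he := idem_sum (D.R_idem hp) hQ
  refine K0.cls_eq he (idem_sum (D.R_idem hQ') hP)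
    ⟨fromBlocks (D.R p) 0 0 Q * fromBlocks r s (-w) c',
      fromBlocks r (-s) w c' * fromBlocks (D.R p) 0 0 Q, ?_, ?_⟩
  · rw [Matrix.mul_assoc, ← Matrix.mul_assoc (fromBlocks r s (-w) c'), a1, ← Matrix.mul_assoc]
    simp [fromBlocks_multiply, R_mul, hp, hQ]
  · rw [Matrix.mul_assoc, ← Matrix.mul_assoc (fromBlocks (D.R p) 0 0 Q), he, ← Matrix.mul_assoc,
      hU, Matrix.mul_assoc, a2]
    simp [fromBlocks_multiply, R_mul]

end Fr
end Crest.Agent.N218.Tr
end
end

-- ▼ part N218/Tr/Top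

/-!
# Row 218, transfer (helper37): the transfer for `Z/K → Z/G`
-/

set_option autoImplicit false
set_option linter.unusedVariables false
set_option linter.unusedSectionVars false
set_option linter.unusedSimpArgs false

open Crest.Agent.R204.K357 Matrix Crest.Agent.N218.K Set
open scoped Kronecker ComplexConjugate

noncomputable section

namespace Crest.Agent.N218.Tr

theorem cls_bd {A J α : Type} [CommRing A] [Fintype J] [DecidableEq J] [Fintype α]
    (g : J → Matrix α α A) (hg : ∀ j, g j * g j = g j) :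
    K0.cls (of fun (x y : J × α) => if x.1 = y.1 then g x.1 x.2 y.2 else 0) = ∑ j, K0.cls (g j) := by
  have i1 : ∀ j : J, single j j (1 : A) * single j j (1 : A) = single j j 1 := fun j => by simp
  have e : (of fun (x y : J × α) => if x.1 = y.1 then g x.1 x.2 y.2 else 0) =
      ∑ j, single j j (1 : A) ⊗ₖ g j := by
    ext x y
    simp only [of_apply, Matrix.sum_apply, kroneckerMap_apply, single_apply, ite_mul, one_mul,
      zero_mul]
    rw [Finset.sum_eq_single x.1 (fun j _ h => by simp [h]) (by simp)]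
    simp
  rw [e, K0.cls_def, cl_finset_sum _ _ (fun j _ => idem_kron (i1 j) (hg j)) fun i _ j _ h => by
    rw [← mul_kronecker_mul, single_mul_single_of_ne _ _ _ _ h, zero_kronecker], map_sum]
  refine Finset.sum_congr rfl fun j _ => ?_
  rw [← K0.cls_def, K0.cls_kron (i1 j) (hg j), K0.cls_eq (f := (1 : Matrix Unit Unit A)) (i1 j)
    (by simp) ⟨single j () 1, single () j 1, by simp, by ext; simp⟩, K0.cls_one_unit, one_mul]

variable {Γ Γ' : Type} [Group Γ] [TopologicalSpace Γ] [Group Γ'] [TopologicalSpace Γ']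

/-- coset representatives `t` of `φ Γ' \ Γ` and as many characters of the quotient -/
structure Cs (φ : Γ' →* Γ) (J : Type) where
  t : J → Γ
  ex : ∀ g, ∃ i k, g = φ k * t i
  un : ∀ i j k, t i = φ k * t j → i = j
  χ : J → Γ →* Circle
  tr : ∀ j k, χ j (φ k) = 1
  inj : Function.Injective χ

namespace Cs
variable {φ : Γ' →* Γ} {J : Type} [Fintype J] [DecidableEq J] (C : Cs φ J)

theorem perm (g : Γ) : ∃ π : J ≃ J, ∀ i, ∃ k, C.t i * g = φ k * C.t (π i) := by
  choose π k h using fun i => C.ex (C.t i * g)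
  refine ⟨Equiv.ofBijective π (Finite.injective_iff_bijective.1 fun i j e => ?_), fun i => ⟨_, h i⟩⟩
  refine C.un i j (k i * (k j)⁻¹) (mul_right_cancel (b := g) ?_)
  rw [h i, mul_assoc, h j, e, map_mul, map_inv]; group

include C in
theorem card_ne : (Fintype.card J : ℂ) ≠ 0 := by
  obtain ⟨i, -⟩ := C.ex 1
  exact Nat.cast_ne_zero.2 (Fintype.card_pos_iff.2 ⟨i⟩).ne'

theorem o2 (j j' : J) : ∑ i, (C.χ j (C.t i) : ℂ) * conj (C.χ j' (C.t i) : ℂ) =
    if j = j' then (Fintype.card J : ℂ) else 0 := by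
  split_ifs with h
  · simp [h, Complex.mul_conj]
  · obtain ⟨g, hg⟩ : ∃ g, C.χ j g ≠ C.χ j' g := by
      by_contra! e
      exact h (C.inj (MonoidHom.ext e))
    obtain ⟨π, hπ⟩ := C.perm g
    have : ∑ i, (C.χ j (C.t i) : ℂ) * conj (C.χ j' (C.t i) : ℂ) = ((C.χ j g : ℂ) *
        conj (C.χ j' g : ℂ)) * ∑ i, (C.χ j (C.t i) : ℂ) * conj (C.χ j' (C.t i) : ℂ) := by
      rw [Finset.mul_sum, ← π.sum_comp]
      refine Finset.sum_congr rfl fun i _ => ?_
      obtain ⟨k, hk⟩ := hπ i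
      have e : ∀ l, (C.χ l (C.t (π i)) : ℂ) = C.χ l (C.t i) * C.χ l g := fun l => by
        rw [← Circle.coe_mul, ← map_mul, hk, map_mul, C.tr, one_mul]
      rw [e, e, map_mul]; ring
    refine eq_zero_of_mul_eq_self_left (fun e => hg (Circle.ext ?_)) this.symm
    have := congrArg (· * (C.χ j' g : ℂ)) e
    simpa [mul_assoc, Complex.conj_mul', Circle.norm_coe] using this

theorem o1 (i i' : J) : ∑ j, conj (C.χ j (C.t i) : ℂ) * (C.χ j (C.t i') : ℂ) =
    if i = i' then (Fintype.card J : ℂ) else 0 := by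
  let M : Matrix J J ℂ := of fun j i => (C.χ j (C.t i) : ℂ)
  have h : M * ((Fintype.card J : ℂ)⁻¹ • Mᴴ) = 1 := by
    rw [Matrix.mul_smul]
    ext1 j j'
    change (_ : ℂ) * ∑ i, (C.χ j (C.t i) : ℂ) * conj (C.χ j' (C.t i) : ℂ) = if _ then _ else _
    rw [C.o2]
    split_ifs
    · exact inv_mul_cancel₀ C.card_ne
    · exact mul_zero _
  have h0 : ((Fintype.card J : ℂ)⁻¹ • Mᴴ) * M = 1 := mul_eq_one_comm.1 h
  rw [Matrix.smul_mul] at h0
  have h' : (Fintype.card J : ℂ)⁻¹ * ∑ j, conj (C.χ j (C.t i) : ℂ) * (C.χ j (C.t i') : ℂ) =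
    if i = i' then 1 else 0 := congrFun (congrFun h0 i) i'
  rw [inv_mul_eq_iff_eq_mul₀ C.card_ne] at h'
  rw [h', mul_ite, mul_one, mul_zero]

end Cs

variable (Z : GS Γ) {φ : Γ' →* Γ} (hφ : Continuous φ)

/-- the projection `Z/K → Z/G` -/
def rq : C((Z.res φ hφ).Q, Z.Q) :=
  GS.qmap (Z.res φ hφ) Z (ContinuousMap.id _) fun k _ => ⟨φ k, rfl⟩

/-- the point of `Z/K` -/
abbrev pk (z : Z.Z) : (Z.res φ hφ).Q := (Z.res φ hφ).pr z

theorem pk_act (k : Γ') (z : Z.Z) : pk Z hφ (Z.act (φ k) z) = pk Z hφ z := (Z.res φ hφ).pr_act k z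

theorem extK {b b' : C((Z.res φ hφ).Q, ℂ)} (h : ∀ z : Z.Z, b (pk Z hφ z) = b' (pk Z hφ z)) :
    b = b' := ContinuousMap.ext fun x => by
  obtain ⟨z, rfl⟩ := (Z.res φ hφ).pr_surj x; exact h z

theorem extG {b b' : C(Z.Q, ℂ)} (h : ∀ z : Z.Z, b (Z.pr z) = b' (Z.pr z)) : b = b' :=
  ContinuousMap.ext fun x => by obtain ⟨z, rfl⟩ := Z.pr_surj x; exact h z

variable {J : Type} [Fintype J] [DecidableEq J] (C : Cs φ J)

/-- sum over the cosets -/
def sm {T : Type} [TopologicalSpace T] [AddCommMonoid T] [ContinuousAdd T]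
    (b : C((Z.res φ hφ).Q, T)) : C(Z.Q, T) :=
  Z.lift ⟨fun z => ∑ i, b (pk Z hφ (Z.act (C.t i) z)), continuous_finsetSum _ fun i _ =>
    b.continuous.comp ((Z.res φ hφ).pr.continuous.comp
      (Z.cont.comp (continuous_const.prodMk continuous_id)))⟩ fun g z => by
    obtain ⟨π, hπ⟩ := C.perm g
    change ∑ i, _ = ∑ i, _
    rw [← π.sum_comp fun i => b (pk Z hφ (Z.act (C.t i) z))]
    refine Finset.sum_congr rfl fun i _ => ?_
    obtain ⟨k, hk⟩ := hπ i
    rw [← Z.mul, hk, Z.mul, pk_act]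

theorem sm_pr {T : Type} [TopologicalSpace T] [AddCommMonoid T] [ContinuousAdd T]
    (b : C((Z.res φ hφ).Q, T)) (z : Z.Z) :
    sm Z hφ C b (Z.pr z) = ∑ i, b (pk Z hφ (Z.act (C.t i) z)) := rfl

variable {α : Type} [Fintype α]

/-- equivariant unit sections for the characters -/
structure Sec (s : J → α → C(Z.Z, ℂ)) : Prop where
  eq : ∀ j a g z, s j a (Z.act g z) = C.χ j g * s j a z
  un : ∀ j z, ∑ a, conj (s j a z) * s j a z = 1

variable {Z C} {s : J → α → C(Z.Z, ℂ)} (hs : Sec Z C s)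

/-- the frame -/
def fu (x : J × α) : C((Z.res φ hφ).Q, ℂ) :=
  (Z.res φ hφ).lift (s x.1 x.2) fun k z => (hs.eq _ _ (φ k) z).trans (by rw [C.tr]; exact one_mul _)

/-- the framed extension `C(Z/G) → C(Z/K)` -/
def frm : Fr C(Z.Q, ℂ) C((Z.res φ hφ).Q, ℂ) (J × α) where
  ι := (ContinuousMap.compRightAlgHom ℂ ℂ (rq Z hφ) : C(Z.Q, ℂ) →ₐ[ℂ] _)
  E := { toFun := fun b => (Fintype.card J : ℂ)⁻¹ • sm Z hφ C b
         map_zero' := extG Z fun z => by simp [sm_pr]
         map_add' := fun b b' => extG Z fun z => by simp [sm_pr, Finset.sum_add_distrib, mul_add] }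
  u x := star (fu hφ hs x)
  v := fu hφ hs
  lin a b := extG Z fun z => by
    change (_ : ℂ) * ∑ i, a (Z.pr (Z.act (C.t i) z)) * b _ = a _ * (_ * ∑ i, b _)
    simp only [Z.pr_act, ← Finset.mul_sum]; ring
  fr b := extK Z hφ fun z => by
    rw [ContinuousMap.sum_apply]
    change ∑ x : J × α, ((_ : ℂ) * ∑ i, conj (s x.1 x.2 (Z.act (C.t i) z)) *
      b (pk Z hφ (Z.act (C.t i) z))) * s x.1 x.2 z = _
    obtain ⟨i0, k, hk⟩ := C.ex 1
    have e0 : ∀ j, (C.χ j (C.t i0) : ℂ) = 1 := fun j => by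
      have := congrArg (C.χ j) hk
      rw [map_one, map_mul, C.tr, one_mul] at this
      rw [← this]; rfl
    have e1 : b (pk Z hφ (Z.act (C.t i0) z)) = b (pk Z hφ z) := by
      rw [← pk_act Z hφ k, ← Z.mul, ← hk, Z.one]
    have e2 : ∀ i, ∑ x : J × α, conj (C.χ x.1 (C.t i) : ℂ) * (conj (s x.1 x.2 z) * s x.1 x.2 z) =
        if i = i0 then (Fintype.card J : ℂ) else 0 := fun i => by
      simp only [Fintype.sum_prod_type, ← Finset.mul_sum, hs.un, ← C.o1, e0, map_one, one_mul,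
        mul_one]
    calc _ = ∑ i, (Fintype.card J : ℂ)⁻¹ * b (pk Z hφ (Z.act (C.t i) z)) *
          ∑ x : J × α, conj (C.χ x.1 (C.t i) : ℂ) * (conj (s x.1 x.2 z) * s x.1 x.2 z) := by
          simp only [hs.eq, map_mul, Finset.mul_sum, Finset.sum_mul]
          rw [Finset.sum_comm]
          exact Finset.sum_congr rfl fun _ _ => Finset.sum_congr rfl fun _ _ => by ring
      _ = _ := by
          simp only [e2, mul_ite, mul_zero, Finset.sum_ite_eq', Finset.mem_univ, if_true, e1]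
          field_simp [C.card_ne]

/-- **the transfer** -/
def tau : KX (Z.res φ hφ).Q →+ KX Z.Q := (frm hφ hs).tau

include hs in
theorem gram_idem (g : J → Matrix α α C(Z.Q, ℂ))
    (hg : ∀ j a b z, g j a b (Z.pr z) = conj (s j a z) * s j b z) (j : J) : g j * g j = g j := by
  · ext1 a b
    refine extG Z fun z => ?_
    rw [mul_apply, ContinuousMap.sum_apply]
    simp only [ContinuousMap.mul_apply, hg]
    calc _ = conj (s j a z) * (∑ c, conj (s j c z) * s j c z) * s j b z := by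
          simp only [Finset.mul_sum, Finset.sum_mul]
          exact Finset.sum_congr rfl fun _ _ => by ring
      _ = _ := by rw [hs.un, mul_one]

/-- **projection formula**: `g j` is the projection onto the line bundle of `χ j` -/
theorem tau_res (g : J → Matrix α α C(Z.Q, ℂ))
    (hg : ∀ j a b z, g j a b (Z.pr z) = conj (s j a z) * s j b z) (x : KX Z.Q) :
    tau hφ hs (pull (rq Z hφ) x) = (∑ j, K0.cls (g j)) * x := by
  rw [mul_comm, ← cls_bd g (gram_idem hs g hg)]
  · refine ((frm hφ hs).tau_map x).trans ?_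
    congr 2
    ext1 x y
    refine extG Z fun z => ?_
    change (_ : ℂ) * ∑ i, conj (s x.1 x.2 (Z.act (C.t i) z)) * s y.1 y.2 (Z.act (C.t i) z) = _
    have : ∀ i, conj (s x.1 x.2 (Z.act (C.t i) z)) * s y.1 y.2 (Z.act (C.t i) z) =
        (C.χ y.1 (C.t i) * conj (C.χ x.1 (C.t i) : ℂ)) * (conj (s x.1 x.2 z) * s y.1 y.2 z) :=
      fun i => by rw [hs.eq, hs.eq, map_mul]; ring
    simp only [this, ← Finset.sum_mul, C.o2, of_apply, eq_comm (a := y.1)]
    split_ifs with h
    · rw [hg, ← h]; field_simp [C.card_ne]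
    · simp

/-- **support lemma**: `f'` is `f` on the sheet `U` and trivial (`f0`) elsewhere -/
theorem tau_supp [CompactSpace Γ'] {X : Type} [TopologicalSpace X] (f f0 : C(Z.Q, X))
    (f' : C((Z.res φ hφ).Q, X)) {U S : Set Z.Z} (hU : IsOpen U) (hS : IsCompact S) (hSU : S ⊆ U)
    (hK : ∀ k, ∀ z ∈ U, Z.act (φ k) z ∈ U) (hd : ∀ g, ∀ z ∈ U, Z.act g z ∈ U → g ∈ φ.range)
    (h1 : ∀ z ∈ U, f' (pk Z hφ z) = f (Z.pr z)) (h2 : ∀ z ∉ U, f' (pk Z hφ z) = f0 (Z.pr z))
    (h3 : ∀ z, (∀ g, Z.act g z ∉ S) → f (Z.pr z) = f0 (Z.pr z)) (l : KX X) :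
    tau hφ hs (pull f' l) + pull f0 l = tau hφ hs (pull (rq Z hφ) (pull f0 l)) + pull f l := by
  obtain ⟨ψ, ψ0, ψ1, -⟩ := exists_continuous_zero_one_of_isClosed
    ((Z.res φ hφ).pr_open U hU).isClosed_compl (hS.image (Z.res φ hφ).pr.continuous).isClosed
    (disjoint_compl_left_iff_subset.2 (image_mono hSU))
  have z0 : ∀ z ∉ U, ψ (pk Z hφ z) = 0 := fun z hz => ψ0 fun ⟨y, hy, e⟩ => by
    obtain ⟨k, rfl⟩ := (Z.res φ hφ).pr_eq.1 e
    exact hz (hK k y hy)
  have z1 : ∀ z ∈ U, ∀ g, Z.act g z ∈ S → ψ (pk Z hφ z) = 1 := fun z hz g hg => by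
    obtain ⟨k, rfl⟩ := hd g z hz (hSU hg)
    exact ψ1 ⟨_, hg, pk_act Z hφ k z⟩
  -- sums over the cosets have one term
  have one : ∀ {T : Type} [AddCommMonoid T] (F : (Z.res φ hφ).Q → T),
      (∀ z ∉ U, F (pk Z hφ z) = 0) → ∀ z g, Z.act g z ∈ U →
      ∑ i, F (pk Z hφ (Z.act (C.t i) z)) = F (pk Z hφ (Z.act g z)) := fun F hF z g hg => by
    obtain ⟨i0, k, hk⟩ := C.ex g
    have e : pk Z hφ (Z.act g z) = pk Z hφ (Z.act (C.t i0) z) := by rw [hk, Z.mul, pk_act]
    rw [e, Finset.sum_eq_single i0 (fun i _ hi => hF _ fun hz => hi ?_) (by simp)]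
    obtain ⟨k', hk'⟩ := hd (C.t i * g⁻¹) _ hg (by rwa [← Z.mul, inv_mul_cancel_right])
    exact C.un i i0 (k' * k) (by rw [map_mul, mul_assoc, ← hk, hk', inv_mul_cancel_right])
  have one' : ∀ {T : Type} [AddCommMonoid T] (F : (Z.res φ hφ).Q → T),
      (∀ z ∉ U, F (pk Z hφ z) = 0) → ∀ z ∈ U,
      ∑ i, F (pk Z hφ (Z.act (C.t i) z)) = F (pk Z hφ z) := fun F hF z hz => by
    rw [one F hF z 1 (by rwa [Z.one]), Z.one]
  let σ : C((Z.res φ hφ).Q, ℂ) := ⟨fun x => Complex.sin (Real.pi / 2 * ψ x), by fun_prop⟩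
  let κ : C((Z.res φ hφ).Q, ℂ) := ⟨fun x => Complex.cos (Real.pi / 2 * ψ x), by fun_prop⟩
  let c : C(Z.Q, ℂ) := ⟨fun x => Complex.cos (Real.pi / 2 * sm Z hφ C ψ x), by fun_prop⟩
  have σ0 : ∀ z ∉ U, σ (pk Z hφ z) = 0 := fun z hz => by simp [σ, z0 z hz]
  have cκ : ∀ z g, Z.act g z ∈ U → c (Z.pr z) = κ (pk Z hφ (Z.act g z)) := fun z g h => by
    simp only [c, κ, ContinuousMap.coe_mk, sm_pr, one ψ z0 z g h]
  have sc : ∀ x, σ x * σ x = 1 - κ x * κ x := fun x => by
    have := Complex.sin_sq_add_cos_sq (Real.pi / 2 * ψ x)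
    simp only [σ, κ, ContinuousMap.coe_mk]; linear_combination this
  have a3 : σ * (frm hφ hs).ι c = σ * κ := extK Z hφ fun z => by
    change σ _ * c (Z.pr z) = σ _ * κ _
    by_cases hz : z ∈ U
    · rw [cκ z 1 (by rwa [Z.one]), Z.one]
    · rw [σ0 z hz, zero_mul, zero_mul]
  have key : ∀ (n : ℕ) (e : Matrix (Fin n) (Fin n) C(X, ℂ)), e * e = e →
      tau hφ hs (pull f' (K0.cls e)) + pull f0 (K0.cls e) =
        tau hφ hs (pull (rq Z hφ) (pull f0 (K0.cls e))) + pull f (K0.cls e) := fun n e he => by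
    have pc : ∀ {A B : Type} [TopologicalSpace A] [TopologicalSpace B] (r : C(A, B))
        (e : Matrix (Fin n) (Fin n) C(B, ℂ)), e * e = e → pull r (K0.cls e) = K0.cls (e.map
          ((ContinuousMap.compRightAlgHom ℂ ℂ r : C(B, ℂ) →ₐ[ℂ] _) : C(B, ℂ) →+* C(A, ℂ))) :=
      fun r e he => K0.mapRing_cls _ he
    rw [pc f' e he, pc f e he, pc f0 e he, pc _ _ (idem_map _ he)]
    refine (frm hφ hs).swap (idem_map _ he) (idem_map _ he) (idem_map _ he) σ
      ((Fintype.card J : ℂ) • σ) κ c (fun b => extK Z hφ fun z => ?_) (extG Z fun z => ?_) a3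
      (by rw [smul_mul_assoc, a3, smul_mul_assoc]) ?_ ?_ ?_
    · change σ _ * ((_ : ℂ) * ∑ i, ((Fintype.card J : ℂ) • σ * b) (pk Z hφ (Z.act (C.t i) z))) =
        (1 - κ _ * κ _) * b _
      rw [← sc]
      by_cases hz : z ∈ U
      · rw [one' (fun x => ((Fintype.card J : ℂ) • σ * b) x) (fun z hz => by simp [σ0 z hz]) z hz]
        simp only [ContinuousMap.mul_apply, ContinuousMap.smul_apply, smul_eq_mul]
        field_simp [C.card_ne]
      · simp [σ0 z hz]
    · change (_ : ℂ) * ∑ i, ((Fintype.card J : ℂ) • σ * σ) (pk Z hφ (Z.act (C.t i) z)) +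
        c _ * c _ = 1
      by_cases hz : ∃ g, Z.act g z ∈ U
      · obtain ⟨g, hg⟩ := hz
        rw [one (fun x => ((Fintype.card J : ℂ) • σ * σ) x) (fun z hz => by simp [σ0 z hz]) z g hg,
          cκ z g hg]
        simp only [ContinuousMap.mul_apply, ContinuousMap.smul_apply, smul_eq_mul, mul_assoc, sc]
        field_simp [C.card_ne]; ring
      · push Not at hz
        simp [c, sm_pr, σ0 _ (hz _), z0 _ (hz _)]
    · ext1 i j
      refine extK Z hφ fun z => ?_
      change κ _ * e i j (f' _) = κ _ * e i j (f0 (Z.pr z))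
      by_cases hz : z ∈ U
      · by_cases h : ∀ g, Z.act g z ∉ S
        · rw [h1 z hz, h3 z h]
        · push Not at h
          obtain ⟨g, hg⟩ := h
          simp [κ, z1 z hz g hg]
      · rw [h2 z hz]
    · ext1 i j
      refine extK Z hφ fun z => ?_
      change (_ * σ _) * e i j (f' _) = (_ * σ _) * e i j (f (Z.pr z))
      by_cases hz : z ∈ U
      · rw [h1 z hz]
      · simp [σ0 z hz]
    · ext1 i j
      refine extG Z fun z => ?_
      change c _ * e i j (f _) = c _ * e i j (f0 _)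
      by_cases h : ∀ g, Z.act g z ∉ S
      · rw [h3 z h]
      · push Not at h
        obtain ⟨g, hg⟩ := h
        rw [cκ z g (hSU hg)]
        simp [κ, z1 _ (hSU hg) 1 (by rwa [Z.one])]
  induction l using K0.ind with | _ n m e e' he he' =>
  simp only [map_sub]
  linear_combination key n e he - key m e' he'

theorem tau_supp' [CompactSpace Γ'] {X : Type} [TopologicalSpace X] (f f0 : C(Z.Q, X))
    (f' : C((Z.res φ hφ).Q, X)) {U S : Set Z.Z} (hU : IsOpen U) (hS : IsCompact S) (hSU : S ⊆ U)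
    (hK : ∀ k, ∀ z ∈ U, Z.act (φ k) z ∈ U) (hd : ∀ g, ∀ z ∈ U, Z.act g z ∈ U → g ∈ φ.range)
    (h1 : ∀ z ∈ U, f' (pk Z hφ z) = f (Z.pr z)) (h2 : ∀ z ∉ U, f' (pk Z hφ z) = f0 (Z.pr z))
    (h3 : ∀ z, (∀ g, Z.act g z ∉ S) → f (Z.pr z) = f0 (Z.pr z)) (l : KX X)
    (hl : pull f0 l = 0) : tau hφ hs (pull f' l) = pull f l := by
  have := tau_supp hφ hs f f0 f' hU hS hSU hK hd h1 h2 h3 l
  rwa [hl, map_zero, map_zero, add_zero, zero_add] at this

end Crest.Agent.N218.Tr
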